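import Vale.Agent.P220.R2.H57J.Main

/-!
# The cotangent bundle of a manifold covered by the sphere
-/

open Set Filter Topology
open scoped ContDiff

set_option linter.unusedSectionVars false

namespace Vale.Agent.P220.R2.H57S

open H57 H180

variable {E : Type} [NormedAddCommGroup E] [InnerProductSpace ℝ E] [FiniteDimensional ℝ E]
  {E' : Type} [NormedAddCommGroup E'] [InnerProductSpace ℝ E'] [FiniteDimensional ℝ E']

/-- `P` restricts to a smooth covering of `Q` by the unit sphere with the deck transformations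
`Γ`. -/
structure IsCover (Q : Set E') (P : E → E') (Γ : Set (E ≃ₗᵢ[ℝ] E)) : Prop where
  /-- smooth -/
  smooth : ContDiff ℝ ∞ P
  /-- from the sphere to `Q` -/
  maps : ∀ q : E, ‖q‖ = 1 → P q ∈ Q
  /-- onto -/
  surj : ∀ y ∈ Q, ∃ q : E, ‖q‖ = 1 ∧ P q = y
  /-- an immersion of the sphere -/
  imm : ∀ q v : E, ‖q‖ = 1 → inner ℝ q v = (0 : ℝ) → fderiv ℝ P q v = 0 → v = 0
  /-- two points over the same point differ by an element of `Γ` -/
  deck : ∀ x y : E, ‖x‖ = 1 → ‖y‖ = 1 → P x = P y → ∃ g ∈ Γ, g x = y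
  /-- the elements of `Γ` are deck transformations -/
  inv : ∀ g ∈ Γ, ∀ x : E, ‖x‖ = 1 → P (g x) = P x

/-- the projection to the tangent space of the sphere -/
noncomputable def pr (q v : E) : E := v - (inner ℝ q v : ℝ) • q

theorem pr_of_orth {q v : E} (h : inner ℝ q v = (0 : ℝ)) : pr q v = v := by
  simp [pr, h]

theorem pr_self {q : E} (h : ‖q‖ = 1) : pr q q = 0 := by
  rw [pr, e_e h, one_smul, sub_self]

theorem in_pr {q : E} (h : ‖q‖ = 1) (v : E) : inner ℝ q (pr q v) = (0 : ℝ) := by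
  rw [pr, inner_sub_right, inner_smul_right, e_e h]
  ring

/-- the pullback of a covector -/
noncomputable def pb (P : E → E') (x : E × E') : E :=
  ∑ i, (inner ℝ (fderiv ℝ P x.1 (pr x.1 (stdOrthonormalBasis ℝ E i))) x.2 : ℝ) •
    stdOrthonormalBasis ℝ E i

section

variable {P : E → E'}

theorem inner_pb (q v : E) (p : E') :
    (inner ℝ (pb P (q, p)) v : ℝ) = inner ℝ p (fderiv ℝ P q (pr q v)) := by
  set b := stdOrthonormalBasis ℝ E with hb
  have h1 : v = ∑ i, (inner ℝ (b i) v : ℝ) • b i := (b.sum_repr' v).symm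
  have h2 : pr q v = ∑ i, (inner ℝ (b i) v : ℝ) • pr q (b i) := by
    have h3 : pr q v = v - (inner ℝ q v : ℝ) • q := rfl
    have h4 : ∀ i, (inner ℝ (b i) v : ℝ) • pr q (b i) = (inner ℝ (b i) v : ℝ) • b i -
      ((inner ℝ (b i) v : ℝ) * inner ℝ q (b i)) • q := fun i => by
      rw [pr, smul_sub, smul_smul]
    have h5 : (inner ℝ q v : ℝ) = ∑ i, (inner ℝ (b i) v : ℝ) * inner ℝ q (b i) := by
      conv_lhs => rw [h1]
      rw [inner_sum]
      simp only [inner_smul_right]
    rw [h3, Finset.sum_congr rfl fun i _ => h4 i, Finset.sum_sub_distrib, ← h1, ← Finset.sum_smul,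
      ← h5]
  rw [h2, map_sum, inner_sum]
  unfold pb
  rw [sum_inner]
  refine Finset.sum_congr rfl fun i _ => ?_
  rw [map_smul, inner_smul_right, inner_smul_left]
  simp only [conj_trivial]
  rw [real_inner_comm p, mul_comm]

theorem pb_smooth (hP : ContDiff ℝ ∞ P) : ContDiff ℝ ∞ (pb P) := by
  have h1 : ContDiff ℝ ∞ (fderiv ℝ P) := hP.fderiv_right (m := ∞) (by simp)
  unfold pb
  refine ContDiff.sum fun i _ => ?_
  refine ContDiff.smul ?_ contDiff_const
  refine ContDiff.inner ℝ ?_ contDiff_snd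
  refine (h1.comp contDiff_fst).clm_apply ?_
  unfold pr
  exact contDiff_const.sub ((contDiff_fst.inner ℝ contDiff_const).smul contDiff_fst)

theorem pb_add (q : E) (p p' : E') : pb P (q, p + p') = pb P (q, p) + pb P (q, p') := by
  unfold pb
  rw [← Finset.sum_add_distrib]
  refine Finset.sum_congr rfl fun i _ => ?_
  rw [inner_add_right, add_smul]

theorem pb_smul (q : E) (a : ℝ) (p : E') : pb P (q, a • p) = a • pb P (q, p) := by
  unfold pb
  rw [Finset.smul_sum]
  refine Finset.sum_congr rfl fun i _ => ?_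
  rw [inner_smul_right, smul_smul]

theorem pr_add (q v w : E) : pr q (v + w) = pr q v + pr q w := by
  simp only [pr, inner_add_right]
  module

theorem pr_smul (q : E) (a : ℝ) (v : E) : pr q (a • v) = a • pr q v := by
  simp only [pr, inner_smul_right]
  module

/-- the metric pulled back -/
noncomputable def gm (P : E → E') (q : E) : E →L[ℝ] E :=
  LinearMap.toContinuousLinearMap
    { toFun := fun v => pb P (q, fderiv ℝ P q (pr q v)) + (inner ℝ q v : ℝ) • q
      map_add' := fun v w => by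
        rw [pr_add, map_add, pb_add, inner_add_right, add_smul]
        abel
      map_smul' := fun a v => by
        simp only [RingHom.id_apply]
        rw [pr_smul, map_smul, pb_smul, inner_smul_right, smul_add, smul_smul] }

theorem gm_apply (q v : E) :
    gm P q v = pb P (q, fderiv ℝ P q (pr q v)) + (inner ℝ q v : ℝ) • q := rfl

theorem gm_smooth (hP : ContDiff ℝ ∞ P) : ContDiff ℝ ∞ (gm P) := by
  rw [contDiff_clm_apply_iff]
  intro v
  have h1 : ContDiff ℝ ∞ (fderiv ℝ P) := hP.fderiv_right (m := ∞) (by simp)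
  have h2 : ContDiff ℝ ∞ fun q : E => pr q v := by
    unfold pr
    exact contDiff_const.sub ((contDiff_id.inner ℝ contDiff_const).smul contDiff_id)
  have h3 : ContDiff ℝ ∞ fun q : E => fderiv ℝ P q (pr q v) := h1.clm_apply h2
  exact ((pb_smooth hP).comp (contDiff_id.prodMk h3)).add
    ((contDiff_id.inner ℝ contDiff_const).smul contDiff_id)

theorem inner_gm (q v : E) :
    (inner ℝ (gm P q v) v : ℝ) = ‖fderiv ℝ P q (pr q v)‖ ^ 2 + (inner ℝ q v : ℝ) ^ 2 := by
  rw [gm_apply, inner_add_left, inner_pb, inner_smul_left, real_inner_self_eq_norm_sq]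
  simp only [conj_trivial]
  ring

end

namespace IsCover

variable {n : ℕ} {Q : Set E'} {P : E → E'} {Γ : Set (E ≃ₗᵢ[ℝ] E)} (hc : IsCover Q P Γ)

include hc

theorem gm_inj {q : E} (hq : ‖q‖ = 1) {v : E} (h : gm P q v = 0) : v = 0 := by
  have h1 := inner_gm (P := P) q v
  rw [h, inner_zero_left] at h1
  have h2 : (inner ℝ q v : ℝ) = 0 := by
    nlinarith [sq_nonneg ‖fderiv ℝ P q (pr q v)‖, sq_nonneg (inner ℝ q v : ℝ)]
  have h3 : ‖fderiv ℝ P q (pr q v)‖ = 0 := by
    nlinarith [sq_nonneg ‖fderiv ℝ P q (pr q v)‖, sq_nonneg (inner ℝ q v : ℝ)]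
  rw [pr_of_orth h2, norm_eq_zero] at h3
  exact hc.imm q v hq h2 h3

theorem gm_det {q : E} (hq : ‖q‖ = 1) : (gm P q).det ≠ 0 := by
  refine H64.det_ne_zero_of_injective ?_
  intro a b hab
  have h1 : gm P q (a - b) = 0 := by
    rw [map_sub]
    exact sub_eq_zero.2 hab
  exact sub_eq_zero.1 (hc.gm_inj hq h1)

theorem gm_inverse {q : E} (hq : ‖q‖ = 1) (v : E) : (gm P q).inverse (gm P q v) = v := by
  have h1 : (((gm P q).toContinuousLinearEquivOfDetNeZero (hc.gm_det hq) : E ≃L[ℝ] E) : E →L[ℝ] E) =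
      gm P q := ContinuousLinearMap.coe_toContinuousLinearEquivOfDetNeZero _ _
  rw [← h1, ContinuousLinearMap.inverse_equiv]
  exact ContinuousLinearEquiv.symm_apply_apply _ v

theorem gm_surj {q : E} (hq : ‖q‖ = 1) (p : E) : ∃ v, gm P q v = p := by
  have h1 : (((gm P q).toContinuousLinearEquivOfDetNeZero (hc.gm_det hq) : E ≃L[ℝ] E) : E →L[ℝ] E) =
      gm P q := ContinuousLinearMap.coe_toContinuousLinearEquivOfDetNeZero _ _
  refine ⟨((gm P q).toContinuousLinearEquivOfDetNeZero (hc.gm_det hq)).symm p, ?_⟩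
  have h2 := congrArg (fun C : E →L[ℝ] E =>
    C (((gm P q).toContinuousLinearEquivOfDetNeZero (hc.gm_det hq)).symm p)) h1
  exact h2.symm.trans (ContinuousLinearEquiv.apply_symm_apply _ p)

theorem inverse_smooth {q : E} (hq : (gm P q).det ≠ 0) :
    ContDiffAt ℝ ∞ (fun x => (gm P x).inverse) q := by
  have : CompleteSpace E := FiniteDimensional.complete ℝ E
  have h1 : (((gm P q).toContinuousLinearEquivOfDetNeZero hq : E ≃L[ℝ] E) : E →L[ℝ] E) =
      gm P q := ContinuousLinearMap.coe_toContinuousLinearEquivOfDetNeZero _ _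
  have h2 : ContDiffAt ℝ ∞ ContinuousLinearMap.inverse (gm P q) := by
    rw [← h1]
    exact contDiffAt_map_inverse _
  exact h2.comp q (gm_smooth hc.smooth).contDiffAt

end IsCover

/-- the map of the cotangent bundles -/
noncomputable def TT (P : E → E') (z : E × E) : E' × E' :=
  (P z.1, fderiv ℝ P z.1 (pr z.1 ((gm P z.1).inverse z.2)))

namespace IsCover

variable {n : ℕ} {Q : Set E'} {P : E → E'} {Γ : Set (E ≃ₗᵢ[ℝ] E)} (hc : IsCover Q P Γ)

include hc

theorem TT_smooth {z : E × E} (hz : (gm P z.1).det ≠ 0) : ContDiffAt ℝ ∞ (TT P) z := by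
  have h1 : ContDiff ℝ ∞ (fderiv ℝ P) := hc.smooth.fderiv_right (m := ∞) (by simp)
  have h2 : ContDiffAt ℝ ∞ (fun z : E × E => (gm P z.1).inverse z.2) z :=
    ((hc.inverse_smooth hz).comp z contDiffAt_fst).clm_apply contDiffAt_snd
  have h3 : ContDiffAt ℝ ∞ (fun z : E × E => pr z.1 ((gm P z.1).inverse z.2)) z := by
    unfold pr
    exact h2.sub ((contDiffAt_fst.inner ℝ h2).smul contDiffAt_fst)
  exact (hc.smooth.contDiffAt.comp z contDiffAt_fst).prodMk
    ((h1.contDiffAt.comp z contDiffAt_fst).clm_apply h3)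

theorem isOpen_det : IsOpen {z : E × E | (gm P z.1).det ≠ 0} := by
  have h1 : Continuous fun z : E × E => (gm P z.1).det :=
    ContinuousLinearMap.continuous_det.comp ((gm_smooth hc.smooth).continuous.comp continuous_fst)
  exact isOpen_ne_fun h1 continuous_const

theorem TT_pb {q u : E} (hq : ‖q‖ = 1) (hu : inner ℝ q u = (0 : ℝ)) :
    TT P (q, pb P (q, fderiv ℝ P q u)) = (P q, fderiv ℝ P q u) := by
  have h1 : gm P q u = pb P (q, fderiv ℝ P q u) := by
    rw [gm_apply, pr_of_orth hu, hu, zero_smul, add_zero]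
  show (P q, fderiv ℝ P q (pr q ((gm P q).inverse (pb P (q, fderiv ℝ P q u))))) = _
  rw [← h1, hc.gm_inverse hq, pr_of_orth hu]

theorem TT_spec {q p : E} (hq : ‖q‖ = 1) (hp : inner ℝ q p = (0 : ℝ)) :
    ∃ u, inner ℝ q u = (0 : ℝ) ∧ TT P (q, p) = (P q, fderiv ℝ P q u) ∧
      pb P (q, fderiv ℝ P q u) = p := by
  obtain ⟨u, hu⟩ := hc.gm_surj hq p
  have h1 : (inner ℝ (gm P q u) q : ℝ) = inner ℝ q u := by
    rw [gm_apply, inner_add_left, inner_pb, pr_self hq, map_zero, inner_zero_right, zero_add,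
      inner_smul_left, e_e hq]
    simp
  have h2 : inner ℝ q u = (0 : ℝ) := by
    rw [← h1, hu, real_inner_comm]
    exact hp
  have h3 : pb P (q, fderiv ℝ P q u) = p := by
    rw [← hu, gm_apply, pr_of_orth h2, h2, zero_smul, add_zero]
  refine ⟨u, h2, ?_, h3⟩
  rw [← hc.TT_pb hq h2, h3]

/-- the tangent space of `Q` -/
theorem tan_Q (hn : Module.finrank ℝ E = n + 1) (hQ : IsClosedManifold n Q) {q : E} (hq : ‖q‖ = 1)
    {v : E'} : v ∈ Tan Q (P q) ↔ ∃ u, inner ℝ q u = (0 : ℝ) ∧ fderiv ℝ P q u = v := by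
  obtain ⟨U, r, hr, hd⟩ := exists_ret hQ.sub hQ.compact
  have hy : P q ∈ Q := hc.maps q hq
  have hback : ∀ u, inner ℝ q u = (0 : ℝ) → fderiv ℝ P q u ∈ Tan Q (P q) := by
    intro u hu
    obtain ⟨c, h1, h2, -, h3, h4⟩ := curve_sph hq hu
    refine ⟨fun t => P (c t), hc.smooth.comp h1, fun t => hc.maps _ (mem_Sph.1 (h2 t)), by
      beta_reduce
      rw [h3], ?_⟩
    have h5 : HasFDerivAt P (fderiv ℝ P q) (c 0) := by
      rw [h3]
      exact (hc.smooth.differentiable (by simp) q).hasFDerivAt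
    exact (h5.comp_hasDerivAt 0 h4).deriv
  constructor
  · intro hv
    have hq0 : q ≠ 0 := by
      rintro rfl
      simp at hq
    have h1 : Submodule.map (fderiv ℝ P q : E →ₗ[ℝ] E') (ℝ ∙ q)ᗮ ≤ Tn r (P q) := by
      rintro _ ⟨u, hu, rfl⟩
      have hu' : inner ℝ q u = (0 : ℝ) := hu q (Submodule.mem_span_singleton_self q)
      exact (hr.mem_Tan hy).1 (hback u hu')
    have h2 : Module.finrank ℝ (Submodule.map (fderiv ℝ P q : E →ₗ[ℝ] E') (ℝ ∙ q)ᗮ) = n := by
      have h3 : Module.finrank ℝ (ℝ ∙ q)ᗮ = n := by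
        have := Fact.mk hn
        exact Submodule.finrank_orthogonal_span_singleton hq0
      rw [← h3, ← LinearMap.range_domRestrict]
      refine LinearMap.finrank_range_of_inj ?_
      rintro ⟨a, ha⟩ ⟨b, hb⟩ hab
      have ha' : inner ℝ q a = (0 : ℝ) := ha q (Submodule.mem_span_singleton_self q)
      have hb' : inner ℝ q b = (0 : ℝ) := hb q (Submodule.mem_span_singleton_self q)
      have h5 : fderiv ℝ P q a = fderiv ℝ P q b := hab
      have h6 : fderiv ℝ P q (a - b) = 0 := by rw [map_sub, h5, sub_self]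
      have h7 := hc.imm q (a - b) hq (by rw [inner_sub_right, ha', hb', sub_zero]) h6
      exact Subtype.ext (sub_eq_zero.1 h7)
    have h4 := Submodule.eq_of_le_of_finrank_eq h1 (h2.trans (hd _ hy).symm)
    have h5 : v ∈ Tn r (P q) := (hr.mem_Tan hy).1 hv
    rw [← h4] at h5
    obtain ⟨u, hu, rfl⟩ := h5
    exact ⟨u, hu q (Submodule.mem_span_singleton_self q), rfl⟩
  · rintro ⟨u, hu, rfl⟩
    exact hback u hu

end IsCover

end Vale.Agent.P220.R2.H57S
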