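import Vale.Agent.P220.R2.H57J.Main

/-!
# Equivariant exact isotopies of the zero section of the sphere
-/

open Set Filter Topology
open scoped ContDiff

set_option linter.unusedSectionVars false

namespace Vale.Agent.P220.R2.H57S

open H57 H180

variable {E : Type} [NormedAddCommGroup E] [InnerProductSpace ℝ E] [FiniteDimensional ℝ E]

/-- an equivariant exact isotopy from the zero section of the sphere to `L` -/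
structure SphIso (Γ : Set (E ≃ₗᵢ[ℝ] E)) (L : Set (E × E)) (ι : ℝ × (E × E) → E × E)
    (f : ℝ × (E × E) → ℝ) : Prop where
  hι : ContDiff ℝ ∞ ι
  hf : ContDiff ℝ ∞ f
  norm : ∀ s, ∀ q : E, ‖q‖ = 1 → ‖(ι (s, (q, 0))).1‖ = 1
  orth : ∀ s, ∀ q : E, ‖q‖ = 1 → inner ℝ (ι (s, (q, 0))).1 (ι (s, (q, 0))).2 = (0 : ℝ)
  inj : ∀ s, ∀ q q' : E, ‖q‖ = 1 → ‖q'‖ = 1 → ι (s, (q, 0)) = ι (s, (q', 0)) → q = q'
  imm : ∀ s, ∀ q v : E, ‖q‖ = 1 → inner ℝ q v = (0 : ℝ) →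
    fderiv ℝ ι (s, (q, 0)) (0, (v, 0)) = 0 → v = 0
  ex : ∀ s, ∀ q v : E, ‖q‖ = 1 → inner ℝ q v = (0 : ℝ) →
    fderiv ℝ f (s, (q, 0)) (0, (v, 0)) =
      inner ℝ (ι (s, (q, 0))).2 (fderiv ℝ ι (s, (q, 0)) (0, (v, 0))).1
  zero : ∀ q : E, ‖q‖ = 1 → ι (0, (q, 0)) = (q, 0)
  one : ∀ z, z ∈ L ↔ ∃ q : E, ‖q‖ = 1 ∧ ι (1, (q, 0)) = z
  eqv : ∀ g ∈ Γ, ∀ s, ∀ q : E, ‖q‖ = 1 →
    ι (s, (g q, 0)) = (g (ι (s, (q, 0))).1, g (ι (s, (q, 0))).2)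
  eqf : ∀ g ∈ Γ, ∀ s, ∀ q : E, ‖q‖ = 1 → f (s, (g q, 0)) = f (s, (q, 0))

end Vale.Agent.P220.R2.H57S
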