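import Vale.Agent.P220.R2.H57S.Lift
import Vale.Agent.P220.R2.H57S.Def

/-!
# Equivariant isotopies of the sphere descend to Hamiltonian isotopies
-/

open Set Filter Topology
open scoped ContDiff

set_option linter.unusedSectionVars false

namespace Vale.Agent.P220.R2.H57S

open H57 H180

variable {E : Type} [NormedAddCommGroup E] [InnerProductSpace ℝ E] [FiniteDimensional ℝ E]
  {E' : Type} [NormedAddCommGroup E'] [InnerProductSpace ℝ E'] [FiniteDimensional ℝ E']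

theorem dfst {X Y : Type} [NormedAddCommGroup X] [NormedSpace ℝ X] [NormedAddCommGroup Y]
    [NormedSpace ℝ Y] {c : ℝ → X × Y} {v : X × Y} {t : ℝ} (h : HasDerivAt c v t) :
    HasDerivAt (fun t => (c t).1) v.1 t :=
  (ContinuousLinearMap.fst ℝ X Y).hasFDerivAt.comp_hasDerivAt t h

theorem dsnd {X Y : Type} [NormedAddCommGroup X] [NormedSpace ℝ X] [NormedAddCommGroup Y]
    [NormedSpace ℝ Y] {c : ℝ → X × Y} {v : X × Y} {t : ℝ} (h : HasDerivAt c v t) :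
    HasDerivAt (fun t => (c t).2) v.2 t :=
  (ContinuousLinearMap.snd ℝ X Y).hasFDerivAt.comp_hasDerivAt t h

theorem pr_g (g : E ≃ₗᵢ[ℝ] E) (q v : E) : pr (g q) (g v) = g (pr q v) := by
  simp only [pr, LinearIsometryEquiv.inner_map_map, map_sub, map_smul]

namespace IsCover

variable {n : ℕ} {Q : Set E'} {P : E → E'} {Γ : Set (E ≃ₗᵢ[ℝ] E)} (hc : IsCover Q P Γ)
  {L : Set (E' × E')}

include hc

theorem dP_g {g : E ≃ₗᵢ[ℝ] E} (hg : g ∈ Γ) {q v : E} (hq : ‖q‖ = 1) (hv : inner ℝ q v = (0 : ℝ)) :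
    fderiv ℝ P (g q) (g v) = fderiv ℝ P q v := by
  obtain ⟨c, h1, h2, -, h3, h4⟩ := curve_sph hq hv
  have d1 : HasDerivAt (fun t => P (c t)) (fderiv ℝ P q v) 0 := by
    have h5 : HasFDerivAt P (fderiv ℝ P q) (c 0) := by
      rw [h3]
      exact (hc.smooth.differentiable (by simp) q).hasFDerivAt
    exact h5.comp_hasDerivAt 0 h4
  have d2 : HasDerivAt (fun t => P (g (c t))) (fderiv ℝ P (g q) (g v)) 0 := by
    have h5 : HasFDerivAt P (fderiv ℝ P (g q)) (g (c 0)) := by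
      rw [h3]
      exact (hc.smooth.differentiable (by simp) (g q)).hasFDerivAt
    have h6 : HasDerivAt (fun t => g (c t)) (g v) 0 :=
      ((g : E ≃L[ℝ] E) : E →L[ℝ] E).hasFDerivAt.comp_hasDerivAt 0 h4
    exact h5.comp_hasDerivAt 0 h6
  have h5 : (fun t => P (g (c t))) = fun t => P (c t) := funext fun t =>
    hc.inv g hg _ (mem_Sph.1 (h2 t))
  rw [h5] at d2
  exact d2.unique d1

theorem pb_g {g : E ≃ₗᵢ[ℝ] E} (hg : g ∈ Γ) {q : E} (hq : ‖q‖ = 1) (p : E') :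
    pb P (g q, p) = g (pb P (q, p)) := by
  refine ext_inner_right ℝ fun v => ?_
  obtain ⟨u, rfl⟩ := g.surjective v
  rw [inner_pb, pr_g, hc.dP_g hg hq (in_pr hq u), LinearIsometryEquiv.inner_map_map, inner_pb]

theorem TT_g {g : E ≃ₗᵢ[ℝ] E} (hg : g ∈ Γ) {z : E × E} (h1 : ‖z.1‖ = 1)
    (h2 : inner ℝ z.1 z.2 = (0 : ℝ)) : TT P (g z.1, g z.2) = TT P z := by
  obtain ⟨u, hu, h3, h4⟩ := hc.TT_spec h1 h2
  have h3' : TT P z = (P z.1, fderiv ℝ P z.1 u) := h3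
  have h5 : ‖g z.1‖ = 1 := by rw [LinearIsometryEquiv.norm_map, h1]
  have h6 : inner ℝ (g z.1) (g u) = (0 : ℝ) := by rw [LinearIsometryEquiv.inner_map_map, hu]
  have h7 := hc.TT_pb h5 h6
  rw [hc.dP_g hg h1 hu, hc.pb_g hg h1, h4, hc.inv g hg _ h1] at h7
  rw [h7, h3']

theorem TT_eq {z z' : E × E} (h1 : ‖z.1‖ = 1) (h2 : inner ℝ z.1 z.2 = (0 : ℝ))
    (h1' : ‖z'.1‖ = 1) (h2' : inner ℝ z'.1 z'.2 = (0 : ℝ)) (h : TT P z = TT P z') :
    ∃ g ∈ Γ, (g z.1, g z.2) = z' := by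
  obtain ⟨g, hg, hgz⟩ := hc.deck z.1 z'.1 h1 h1' (congrArg Prod.fst h)
  refine ⟨g, hg, Prod.ext hgz ?_⟩
  show g z.2 = z'.2
  rw [← hc.pb_TT h1 h2, ← hc.pb_TT h1' h2', ← h, ← hgz, hc.pb_g hg h1]

theorem TT_fst {z v : E × E} (h1 : ‖z.1‖ = 1) :
    (fderiv ℝ (TT P) z v).1 = fderiv ℝ P z.1 v.1 := by
  have h5 : HasFDerivAt (fun z => (TT P z).1)
      ((ContinuousLinearMap.fst ℝ E' E').comp (fderiv ℝ (TT P) z)) z :=
    hasFDerivAt_fst.comp z
      ((hc.TT_smooth (hc.gm_det h1)).differentiableAt (by simp)).hasFDerivAt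
  have h6 : HasFDerivAt (fun z : E × E => P z.1)
      ((fderiv ℝ P z.1).comp (ContinuousLinearMap.fst ℝ E E)) z :=
    ((hc.smooth.differentiable (by simp) z.1).hasFDerivAt).comp z hasFDerivAt_fst
  exact congrArg (fun C : (E × E) →L[ℝ] E' => C v) (h5.unique h6)

/-- **Equivariant exact isotopies descend.** -/
theorem descent (hn : Module.finrank ℝ E = n + 1) (hQ : IsClosedManifold n Q)
    (hL : L ⊆ Cot Q) {ι : ℝ × (E × E) → E × E} {f : ℝ × (E × E) → ℝ}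
    (hs : SphIso Γ (lift P L) ι f) : HamIsotopicToZero Q L := by
  classical
  obtain ⟨UQ, r, hr, -⟩ := exists_ret hQ.sub hQ.compact
  have hKcl : IsClosed {x : ℝ × (E' × E') | x.2.1 ∈ Q ∧ x.2.2 = 0} :=
    (hQ.compact.isClosed.preimage (by fun_prop)).inter
      (isClosed_eq (by fun_prop) continuous_const)
  have hex : ∀ y : E', ∃ q : E, y ∈ Q → ‖q‖ = 1 ∧ P q = y := by
    intro y
    by_cases hy : y ∈ Q
    · obtain ⟨q, hq⟩ := hc.surj y hy
      exact ⟨q, fun _ => hq⟩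
    · exact ⟨0, fun h => absurd h hy⟩
  choose qq hqq using hex
  -- the two maps are well defined
  have hwell : ∀ s, ∀ q q' : E, ‖q‖ = 1 → ‖q'‖ = 1 → P q = P q' →
      TT P (ι (s, (q, 0))) = TT P (ι (s, (q', 0))) ∧ f (s, (q, 0)) = f (s, (q', 0)) := by
    intro s q q' hq hq' h
    obtain ⟨g, hg, rfl⟩ := hc.deck q q' hq hq' h
    refine ⟨?_, (hs.eqf g hg s q hq).symm⟩
    rw [hs.eqv g hg s q hq, hc.TT_g hg (hs.norm s q hq) (hs.orth s q hq)]
  have hloc : ∀ x₀ : ℝ × (E' × E'), x₀ ∈ {x : ℝ × (E' × E') | x.2.1 ∈ Q ∧ x.2.2 = 0} →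
      ∃ O ∈ 𝓝 x₀, ∃ σ : E' → E, ContDiffOn ℝ ∞ (fun x : ℝ × (E' × E') => σ x.2.1) O ∧
        (∀ x ∈ O, (gm P (ι (x.1, (σ x.2.1, 0))).1).det ≠ 0) ∧
        ∀ x ∈ O, x.2.1 ∈ Q → ‖σ x.2.1‖ = 1 ∧ P (σ x.2.1) = x.2.1 := by
    rintro ⟨s₀, ⟨y₀, p₀⟩⟩ ⟨hy₀, -⟩
    obtain ⟨hq₀, hPq⟩ := hqq y₀ hy₀
    obtain ⟨O, hO, σ, hσs, hσ⟩ := hc.exists_section hq₀
    rw [hPq] at hO
    obtain ⟨O', hO'O, hO'o, hO'm⟩ := mem_nhds_iff.1 hO
    have h1 := hc.section_spec hq₀ hσ univ_mem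
    rw [hPq] at h1
    have hc1 : ContDiffOn ℝ ∞ (fun x : ℝ × (E' × E') => σ x.2.1) {x | x.2.1 ∈ O'} :=
      (hσs.mono hO'O).comp (contDiff_fst.comp contDiff_snd).contDiffOn fun x hx => hx
    have ho : IsOpen {x : ℝ × (E' × E') | x.2.1 ∈ O'} := hO'o.preimage (by fun_prop)
    have hc2 : ContinuousOn (fun x : ℝ × (E' × E') => (gm P (ι (x.1, (σ x.2.1, 0))).1).det)
        {x | x.2.1 ∈ O'} := by
      have h2 : Continuous fun z : ℝ × (E × E) => (gm P (ι z).1).det :=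
        ContinuousLinearMap.continuous_det.comp ((gm_smooth hc.smooth).continuous.comp
          (continuous_fst.comp hs.hι.continuous))
      exact h2.comp_continuousOn (continuous_fst.continuousOn.prodMk
        (hc1.continuousOn.prodMk continuousOn_const))
    have hσ0 : σ y₀ = qq y₀ := by
      have := hσ.self_of_nhds hq₀
      rwa [hPq] at this
    have hne : (gm P (ι (s₀, (σ y₀, 0))).1).det ≠ 0 := by
      rw [hσ0]
      exact hc.gm_det (hs.norm s₀ _ hq₀)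
    have h3 : {x : ℝ × (E' × E') | x.2.1 ∈ O'} ∩
        (fun x : ℝ × (E' × E') => (gm P (ι (x.1, (σ x.2.1, 0))).1).det) ⁻¹' {0}ᶜ ∈
        𝓝 ((s₀, (y₀, p₀)) : ℝ × (E' × E')) := by
      refine (hc2.isOpen_inter_preimage ho isOpen_compl_singleton).mem_nhds ⟨hO'm, ?_⟩
      exact hne
    have h4 : ∀ᶠ x in 𝓝 ((s₀, (y₀, p₀)) : ℝ × (E' × E')),
        x.2.1 ∈ Q → ‖σ x.2.1‖ = 1 ∧ P (σ x.2.1) = x.2.1 := by
      have h5 : Tendsto (fun x : ℝ × (E' × E') => x.2.1) (𝓝 (s₀, (y₀, p₀))) (𝓝 y₀) := by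
        have : Continuous fun x : ℝ × (E' × E') => x.2.1 := by fun_prop
        exact this.tendsto (s₀, (y₀, p₀))
      filter_upwards [h5.eventually h1] with x h6 h7
      exact ⟨(h6 h7).1, (h6 h7).2.1⟩
    refine ⟨_, inter_mem h3 h4, σ, hc1.mono fun x hx => hx.1.1, fun x hx => hx.1.2,
      fun x hx => hx.2⟩
  obtain ⟨J, hJ, hJJ⟩ := glue hKcl (fun x => TT P (ι (x.1, (qq x.2.1, 0)))) (fun x₀ hx₀ => by
    obtain ⟨O, hO, σ, h1, h2, h3⟩ := hloc x₀ hx₀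
    refine ⟨O, hO, fun x => TT P (ι (x.1, (σ x.2.1, 0))), ?_, ?_⟩
    · intro x hx
      have h4 : ContDiffWithinAt ℝ ∞ (fun x : ℝ × (E' × E') => ι (x.1, (σ x.2.1, 0))) O x :=
        hs.hι.contDiffAt.comp_contDiffWithinAt x (contDiffWithinAt_fst.prodMk
          ((h1 x hx).prodMk contDiffWithinAt_const))
      exact (hc.TT_smooth (h2 x hx)).comp_contDiffWithinAt x h4
    · intro x hx hxK
      obtain ⟨h4, h5⟩ := h3 x hx hxK.1
      obtain ⟨h6, h7⟩ := hqq x.2.1 hxK.1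
      exact (hwell x.1 _ _ h4 h6 (h5.trans h7.symm)).1)
  obtain ⟨pf', hpf, hpff⟩ := glue hKcl (fun x => f (x.1, (qq x.2.1, 0))) (fun x₀ hx₀ => by
    obtain ⟨O, hO, σ, h1, h2, h3⟩ := hloc x₀ hx₀
    refine ⟨O, hO, fun x => f (x.1, (σ x.2.1, 0)), ?_, ?_⟩
    · intro x hx
      exact hs.hf.contDiffAt.comp_contDiffWithinAt x (contDiffWithinAt_fst.prodMk
          ((h1 x hx).prodMk contDiffWithinAt_const))
    · intro x hx hxK
      obtain ⟨h4, h5⟩ := h3 x hx hxK.1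
      obtain ⟨h6, h7⟩ := hqq x.2.1 hxK.1
      exact (hwell x.1 _ _ h4 h6 (h5.trans h7.symm)).2)
  have hJq : ∀ s, ∀ q : E, ‖q‖ = 1 → J (s, (P q, 0)) = TT P (ι (s, (q, 0))) := by
    intro s q hq
    have hy := hc.maps q hq
    obtain ⟨h1, h2⟩ := hqq (P q) hy
    rw [hJJ (s, (P q, 0)) ⟨hy, rfl⟩]
    exact (hwell s _ _ h1 hq h2).1
  have hfq : ∀ s, ∀ q : E, ‖q‖ = 1 → pf' (s, (P q, 0)) = f (s, (q, 0)) := by
    intro s q hq
    have hy := hc.maps q hq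
    obtain ⟨h1, h2⟩ := hqq (P q) hy
    rw [hpff (s, (P q, 0)) ⟨hy, rfl⟩]
    exact (hwell s _ _ h1 hq h2).2
  -- the zero section
  have hRet : IsRet {z : E' × E' | z.1 ∈ Q ∧ z.2 = 0} (UQ ×ˢ univ) fun z => (r z.1, 0) := by
    refine ⟨?_, hr.isOpen.prod isOpen_univ, ?_, (hr.smooth.comp contDiff_fst).prodMk contDiff_const,
      ?_, ?_⟩
    · exact (hr.isClosed.preimage continuous_fst).inter (isClosed_singleton.preimage continuous_snd)
    · intro z hz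
      exact ⟨hr.sub hz.1, mem_univ _⟩
    · intro z hz
      exact ⟨hr.maps _ hz.1, rfl⟩
    · rintro ⟨q, p⟩ ⟨h1, h2⟩
      simp only at h1 h2
      subst h2
      simp only [hr.fix q h1]
  have hTn : ∀ z : E' × E', z.1 ∈ Q → ∀ v ∈ Tn (fun z : E' × E' => ((r z.1, 0) : E' × E')) z,
      v.2 = 0 ∧ v.1 ∈ Tan Q z.1 := by
    intro z hz v hv
    have h1 : HasFDerivAt (fun z : E' × E' => ((r z.1, 0) : E' × E'))
        (((fderiv ℝ r z.1).comp (ContinuousLinearMap.fst ℝ E' E')).prod 0) z :=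
      ((hr.hasFDerivAt z.1).comp z hasFDerivAt_fst).prodMk (hasFDerivAt_const _ _)
    rw [mem_Tn, h1.fderiv] at hv
    have h2 : fderiv ℝ r z.1 v.1 = v.1 := congrArg Prod.fst hv
    have h3 : (0 : E') = v.2 := congrArg Prod.snd hv
    exact ⟨h3.symm, (hr.mem_Tan hz).2 h2⟩
  have cK : IsCompact {z : E' × E' | z.1 ∈ Q ∧ z.2 = 0} := by
    have : {z : E' × E' | z.1 ∈ Q ∧ z.2 = 0} = Q ×ˢ {0} := rfl
    rw [this]
    exact hQ.compact.prod isCompact_singleton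
  -- a tangent vector of the zero section
  have hder : ∀ s, ∀ q u : E, ‖q‖ = 1 → inner ℝ q u = (0 : ℝ) →
      fderiv ℝ J (s, (P q, 0)) (0, (fderiv ℝ P q u, 0)) =
        fderiv ℝ (TT P) (ι (s, (q, 0))) (fderiv ℝ ι (s, (q, 0)) (0, (u, 0))) ∧
      fderiv ℝ pf' (s, (P q, 0)) (0, (fderiv ℝ P q u, 0)) =
        fderiv ℝ f (s, (q, 0)) (0, (u, 0)) ∧
      inner ℝ (ι (s, (q, 0))).1 (fderiv ℝ ι (s, (q, 0)) (0, (u, 0))).1 = (0 : ℝ) ∧
      (fderiv ℝ (TT P) (ι (s, (q, 0))) (fderiv ℝ ι (s, (q, 0)) (0, (u, 0))) = 0 →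
        fderiv ℝ ι (s, (q, 0)) (0, (u, 0)) = 0) := by
    intro s q u hq hu
    obtain ⟨c, h1, h2, -, h3, h4⟩ := curve_sph hq hu
    have d1 : HasDerivAt (fun t => ((s, (c t, 0)) : ℝ × (E × E))) (0, (u, 0)) 0 :=
      (hasDerivAt_const (0 : ℝ) s).prodMk (h4.prodMk (hasDerivAt_const (0 : ℝ) (0 : E)))
    have d2 : HasDerivAt (fun t => ι (s, (c t, 0))) (fderiv ℝ ι (s, (q, 0)) (0, (u, 0))) 0 := by
      have h5 : HasFDerivAt ι (fderiv ℝ ι (s, (q, 0))) (s, (c 0, 0)) := by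
        rw [h3]
        exact (hs.hι.differentiable (by simp) _).hasFDerivAt
      exact h5.comp_hasDerivAt 0 d1
    have d3 : HasDerivAt (fun t => f (s, (c t, 0))) (fderiv ℝ f (s, (q, 0)) (0, (u, 0))) 0 := by
      have h5 : HasFDerivAt f (fderiv ℝ f (s, (q, 0))) (s, (c 0, 0)) := by
        rw [h3]
        exact (hs.hf.differentiable (by simp) _).hasFDerivAt
      exact h5.comp_hasDerivAt 0 d1
    have d4 : HasDerivAt (fun t => P (c t)) (fderiv ℝ P q u) 0 := by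
      have h5 : HasFDerivAt P (fderiv ℝ P q) (c 0) := by
        rw [h3]
        exact (hc.smooth.differentiable (by simp) _).hasFDerivAt
      exact h5.comp_hasDerivAt 0 h4
    have d5 : HasDerivAt (fun t => ((s, (P (c t), 0)) : ℝ × (E' × E')))
        (0, (fderiv ℝ P q u, 0)) 0 :=
      (hasDerivAt_const (0 : ℝ) s).prodMk (d4.prodMk (hasDerivAt_const (0 : ℝ) (0 : E')))
    have d6 : HasDerivAt (fun t => TT P (ι (s, (c t, 0))))
        (fderiv ℝ (TT P) (ι (s, (q, 0))) (fderiv ℝ ι (s, (q, 0)) (0, (u, 0)))) 0 := by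
      have h5 : HasFDerivAt (TT P) (fderiv ℝ (TT P) (ι (s, (q, 0)))) (ι (s, (c 0, 0))) := by
        rw [h3]
        exact ((hc.TT_smooth (hc.gm_det (hs.norm s q hq))).differentiableAt (by simp)).hasFDerivAt
      exact h5.comp_hasDerivAt 0 d2
    have hn1 : ∀ t, ‖(ι (s, (c t, 0))).1‖ = 1 := fun t => hs.norm s _ (mem_Sph.1 (h2 t))
    have ho1 : ∀ t, inner ℝ (ι (s, (c t, 0))).1 (ι (s, (c t, 0))).2 = (0 : ℝ) := fun t =>
      hs.orth s _ (mem_Sph.1 (h2 t))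
    have horth : inner ℝ (ι (s, (q, 0))).1 (fderiv ℝ ι (s, (q, 0)) (0, (u, 0))).1 = (0 : ℝ) := by
      refine (tan_sph (hs.norm s q hq)).1 ⟨fun t => (ι (s, (c t, 0))).1, ?_,
        fun t => mem_Sph.2 (hn1 t), by
          beta_reduce
          rw [h3], ?_⟩
      · exact contDiff_fst.comp (hs.hι.comp (contDiff_const.prodMk (h1.prodMk contDiff_const)))
      · exact (hasFDerivAt_fst.comp_hasDerivAt 0 d2).deriv
    refine ⟨?_, ?_, horth, ?_⟩
    · have h5 : HasFDerivAt J (fderiv ℝ J (s, (P q, 0))) (s, (P (c 0), 0)) := by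
        rw [h3]
        exact (hJ.differentiable (by simp) _).hasFDerivAt
      have d7 : HasDerivAt (fun t => J (s, (P (c t), 0))) _ 0 := h5.comp_hasDerivAt 0 d5
      have h6 : (fun t => J (s, (P (c t), 0))) = fun t => TT P (ι (s, (c t, 0))) :=
        funext fun t => hJq s _ (mem_Sph.1 (h2 t))
      rw [h6] at d7
      exact d7.unique d6
    · have h5 : HasFDerivAt pf' (fderiv ℝ pf' (s, (P q, 0))) (s, (P (c 0), 0)) := by
        rw [h3]
        exact (hpf.differentiable (by simp) _).hasFDerivAt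
      have d7 : HasDerivAt (fun t => pf' (s, (P (c t), 0))) _ 0 := h5.comp_hasDerivAt 0 d5
      have h6 : (fun t => pf' (s, (P (c t), 0))) = fun t => f (s, (c t, 0)) :=
        funext fun t => hfq s _ (mem_Sph.1 (h2 t))
      rw [h6] at d7
      exact d7.unique d3
    · intro h0
      have e1 : (fderiv ℝ ι (s, (q, 0)) (0, (u, 0))).1 = 0 := by
        refine hc.imm _ _ (hs.norm s q hq) horth ?_
        rw [← hc.TT_fst (hs.norm s q hq), h0]
        rfl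
      have e2 : (fderiv ℝ ι (s, (q, 0)) (0, (u, 0))).2 = 0 := by
        rw [h0] at d6
        have d8 : HasDerivAt (fun t => (ι (s, (c t, 0))).2)
            (fderiv ℝ ι (s, (q, 0)) (0, (u, 0))).2 0 := dsnd d2
        have d9 : HasDerivAt (fun t => (((ι (s, (c t, 0))).1, (TT P (ι (s, (c t, 0)))).2) : E × E'))
            ((fderiv ℝ ι (s, (q, 0)) (0, (u, 0))).1, (0 : E' × E').2) 0 :=
          (dfst d2).prodMk (dsnd d6)
        rw [e1] at d9
        have d10 := (((pb_smooth hc.smooth).differentiable (by simp)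
          ((ι (s, (c 0, 0))).1, (TT P (ι (s, (c 0, 0)))).2)).hasFDerivAt).comp_hasDerivAt 0 d9
        have h6 : (pb P ∘ fun t => (((ι (s, (c t, 0))).1, (TT P (ι (s, (c t, 0)))).2) : E × E')) =
            fun t => (ι (s, (c t, 0))).2 := funext fun t => hc.pb_TT (hn1 t) (ho1 t)
        rw [h6] at d10
        rw [d8.unique d10]
        have : ((0 : E), (0 : E' × E').2) = 0 := rfl
        rw [this, map_zero]
      exact Prod.ext e1 e2
  obtain ⟨H, φ, hH, hφ, hφι⟩ := H481.ham_ext hr hQ.compact hRet cK hJ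
    (by
      rintro s ⟨y, p⟩ ⟨hy, hp⟩
      simp only at hy hp
      subst hp
      obtain ⟨q, hq, rfl⟩ := hc.surj y hy
      rw [hJq s q hq]
      obtain ⟨u, hu, h1, -⟩ := hc.TT_spec (hs.norm s q hq) (hs.orth s q hq)
      have h1' : TT P (ι (s, (q, 0))) = (P (ι (s, (q, 0))).1, fderiv ℝ P (ι (s, (q, 0))).1 u) := h1
      rw [h1']
      exact ⟨hc.maps _ (hs.norm s q hq), (hc.tan_Q hn hQ (hs.norm s q hq)).2 ⟨u, hu, rfl⟩⟩)
    (by
      rintro s ⟨y, p⟩ ⟨hy, hp⟩ ⟨y', p'⟩ ⟨hy', hp'⟩ h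
      simp only at hy hp hy' hp'
      subst hp hp'
      obtain ⟨q, hq, rfl⟩ := hc.surj y hy
      obtain ⟨q', hq', rfl⟩ := hc.surj y' hy'
      rw [hJq s q hq, hJq s q' hq'] at h
      obtain ⟨g, hg, h1⟩ := hc.TT_eq (hs.norm s q hq) (hs.orth s q hq) (hs.norm s q' hq')
        (hs.orth s q' hq') h
      rw [← hs.eqv g hg s q hq] at h1
      have h2 := hs.inj s (g q) q' (by rw [LinearIsometryEquiv.norm_map, hq]) hq' h1
      rw [← h2, hc.inv g hg q hq])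
    (by
      rintro s ⟨y, p⟩ ⟨hy, hp⟩ ⟨v1, v2⟩ hv h
      simp only at hy hp
      subst hp
      obtain ⟨hv2, hv1⟩ := hTn (y, 0) hy _ hv
      simp only at hv2 hv1
      subst hv2
      obtain ⟨q, hq, rfl⟩ := hc.surj y hy
      obtain ⟨u, hu, rfl⟩ := (hc.tan_Q hn hQ hq).1 hv1
      obtain ⟨h1, -, -, h4⟩ := hder s q u hq hu
      rw [h1] at h
      have h5 := hs.imm s q u hq hu (h4 h)
      rw [h5, map_zero]
      rfl)
    hpf
    (by
      rintro s ⟨y, p⟩ ⟨hy, hp⟩ ⟨v1, v2⟩ hv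
      simp only at hy hp
      subst hp
      obtain ⟨hv2, hv1⟩ := hTn (y, 0) hy _ hv
      simp only at hv2 hv1
      subst hv2
      obtain ⟨q, hq, rfl⟩ := hc.surj y hy
      obtain ⟨u, hu, rfl⟩ := (hc.tan_Q hn hQ hq).1 hv1
      obtain ⟨h1, h2, h3, -⟩ := hder s q u hq hu
      rw [h1, h2, hJq s q hq, hc.TT_lam (hs.norm s q hq) (hs.orth s q hq) h3]
      exact hs.ex s q u hq hu)
  refine ⟨H, φ, hH, hφ, ?_⟩
  have hJ0 : ∀ q : E, ‖q‖ = 1 → J (0, (P q, 0)) = (P q, 0) := by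
    intro q hq
    rw [hJq 0 q hq, hs.zero q hq]
    have h1 := hc.TT_pb hq (inner_zero_right q)
    have h2 : pb P (q, (0 : E')) = 0 := by simp [pb]
    rw [map_zero, h2] at h1
    exact h1
  have h1mem : (1 : ℝ) ∈ Icc (0 : ℝ) 1 := by simp
  have hφ1 : ∀ q : E, ‖q‖ = 1 → φ 1 (P q, 0) = TT P (ι (1, (q, 0))) := by
    intro q hq
    have h1 := hφι 1 h1mem (P q, 0) ⟨hc.maps q hq, rfl⟩
    rwa [hJ0 q hq, hJq 1 q hq] at h1
  ext w
  constructor
  · rintro ⟨⟨y, p⟩, ⟨hy, hp⟩, rfl⟩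
    simp only at hy hp
    subst hp
    obtain ⟨q, hq, rfl⟩ := hc.surj y hy
    rw [hφ1 q hq]
    exact ((hc.mem_lift hn hQ hL).1 ((hs.one _).2 ⟨q, hq, rfl⟩)).2.2
  · intro hw
    obtain ⟨q, hq, hqw⟩ := hc.surj w.1 (hL hw).1
    obtain ⟨q', hq', h1⟩ := (hs.one _).1 (show (q, pb P (q, w.2)) ∈ lift P L from
      ⟨hq, w, hw, hqw.symm, rfl⟩)
    refine ⟨(P q', 0), ⟨hc.maps q' hq', rfl⟩, ?_⟩
    rw [hφ1 q' hq', h1]
    exact hc.TT_lift hn hQ hL hq hw hqw.symm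

end IsCover

end Vale.Agent.P220.R2.H57S
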