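import Vale.Agent.P220.R2.H57S.Cov

/-!
# The preimage of an exact Lagrangian under a covering
-/

open Set Filter Topology
open scoped ContDiff

set_option linter.unusedSectionVars false

namespace Vale.Agent.P220.R2.H57S

open H57 H180

/-- a smooth map on a neighbourhood agrees near the point with a smooth map -/
theorem globalize {X Y : Type} [NormedAddCommGroup X] [NormedSpace ℝ X] [FiniteDimensional ℝ X]
    [NormedAddCommGroup Y] [NormedSpace ℝ Y] [FiniteDimensional ℝ Y] {f : X → Y} {x₀ : X} {O : Set X}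
    (hO : O ∈ 𝓝 x₀) (hf : ContDiffOn ℝ ∞ f O) :
    ∃ f' : X → Y, ContDiff ℝ ∞ f' ∧ f' =ᶠ[𝓝 x₀] f := by
  obtain ⟨δ, hδ, hδO⟩ := Metric.mem_nhds_iff.1 hO
  obtain ⟨f', hf', hff⟩ := glue (S := Metric.closedBall x₀ (δ / 2)) Metric.isClosed_closedBall f
    (fun x hx => ⟨Metric.ball x₀ δ, Metric.isOpen_ball.mem_nhds
      (Metric.closedBall_subset_ball (by linarith) hx), f, hf.mono hδO, fun y _ _ => rfl⟩)
  refine ⟨f', hf', ?_⟩
  filter_upwards [Metric.closedBall_mem_nhds x₀ (half_pos hδ)] with x hx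
  exact hff x hx

variable {E : Type} [NormedAddCommGroup E] [InnerProductSpace ℝ E] [FiniteDimensional ℝ E]
  {E' : Type} [NormedAddCommGroup E'] [InnerProductSpace ℝ E'] [FiniteDimensional ℝ E']

/-- the preimage of `L` in the cotangent bundle of the sphere -/
def lift (P : E → E') (L : Set (E' × E')) : Set (E × E) :=
  {z | ‖z.1‖ = 1 ∧ ∃ w ∈ L, w.1 = P z.1 ∧ z.2 = pb P (z.1, w.2)}

theorem in_pb {P : E → E'} {q : E} (hq : ‖q‖ = 1) (p : E') : inner ℝ q (pb P (q, p)) = (0 : ℝ) := by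
  rw [real_inner_comm, inner_pb, pr_self hq, map_zero, inner_zero_right]

namespace IsCover

variable {n : ℕ} {Q : Set E'} {P : E → E'} {Γ : Set (E ≃ₗᵢ[ℝ] E)} (hc : IsCover Q P Γ)
  {L : Set (E' × E')}

include hc

theorem TT_lift (hn : Module.finrank ℝ E = n + 1) (hQ : IsClosedManifold n Q) (hL : L ⊆ Cot Q)
    {q : E} (hq : ‖q‖ = 1) {w : E' × E'} (hw : w ∈ L) (h1 : w.1 = P q) :
    TT P (q, pb P (q, w.2)) = w := by
  have h2 := (hL hw).2
  rw [h1] at h2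
  obtain ⟨u, hu, hu2⟩ := (hc.tan_Q hn hQ hq).1 h2
  rw [← hu2, hc.TT_pb hq hu, hu2]
  exact Prod.ext h1.symm rfl

theorem mem_lift (hn : Module.finrank ℝ E = n + 1) (hQ : IsClosedManifold n Q) (hL : L ⊆ Cot Q)
    {z : E × E} : z ∈ lift P L ↔ ‖z.1‖ = 1 ∧ inner ℝ z.1 z.2 = (0 : ℝ) ∧ TT P z ∈ L := by
  constructor
  · rintro ⟨h1, w, hw, h2, h3⟩
    refine ⟨h1, ?_, ?_⟩
    · rw [h3, in_pb h1]
    · have h4 := hc.TT_lift hn hQ hL h1 hw h2
      rw [← h3] at h4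
      rw [h4]
      exact hw
  · rintro ⟨h1, h2, h3⟩
    obtain ⟨u, hu, h4, h5⟩ := hc.TT_spec h1 h2
    have h4' : TT P z = (P z.1, fderiv ℝ P z.1 u) := h4
    exact ⟨h1, _, h3, by rw [h4'], by rw [h4', h5]⟩

theorem pb_TT {z : E × E} (h1 : ‖z.1‖ = 1) (h2 : inner ℝ z.1 z.2 = (0 : ℝ)) :
    pb P (z.1, (TT P z).2) = z.2 := by
  obtain ⟨u, hu, h4, h5⟩ := hc.TT_spec h1 h2
  have h4' : TT P z = (P z.1, fderiv ℝ P z.1 u) := h4
  rw [h4']
  exact h5

theorem lift_compact (hL : IsCompact L) : IsCompact (lift P L) := by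
  have h1 : lift P L = (fun x : E × (E' × E') => (x.1, pb P (x.1, x.2.2))) ''
      {x | x ∈ Sph E ×ˢ L ∧ x.2.1 = P x.1} := by
    ext z
    constructor
    · rintro ⟨h1, w, hw, h2, h3⟩
      exact ⟨(z.1, w), ⟨⟨mem_Sph.2 h1, hw⟩, h2⟩, Prod.ext rfl h3.symm⟩
    · rintro ⟨x, ⟨⟨h1, h2⟩, h3⟩, rfl⟩
      exact ⟨mem_Sph.1 h1, x.2, h2, h3, rfl⟩
  rw [h1]
  have hcl : IsClosed {x : E × (E' × E') | x.2.1 = P x.1} :=
    isClosed_eq (by fun_prop) (hc.smooth.continuous.comp continuous_fst)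
  have h2 : IsCompact {x : E × (E' × E') | x ∈ Sph E ×ˢ L ∧ x.2.1 = P x.1} :=
    ((isCompact_sphere (0 : E) 1).prod hL).inter_right hcl
  refine h2.image ?_
  exact continuous_fst.prodMk ((pb_smooth hc.smooth).continuous.comp
    (continuous_fst.prodMk (continuous_snd.comp continuous_snd)))

/-- local sections -/
theorem exists_section {q₀ : E} (hq₀ : ‖q₀‖ = 1) : ∃ O ∈ 𝓝 (P q₀), ∃ σ : E' → E,
    ContDiffOn ℝ ∞ σ O ∧ ∀ᶠ q in 𝓝 q₀, ‖q‖ = 1 → σ (P q) = q := by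
  obtain ⟨U, r, hr⟩ := exists_sph_ret (E := E)
  set f : E → E' × E := fun x => (P x, x - r x) with hf
  have hfs : ContDiff ℝ ∞ f := hc.smooth.prodMk (contDiff_id.sub hr.smooth)
  have hfd : HasFDerivAt f ((fderiv ℝ P q₀).prod (ContinuousLinearMap.id ℝ E - fderiv ℝ r q₀)) q₀ :=
    (hc.smooth.differentiable (by simp) q₀).hasFDerivAt.prodMk
      ((hasFDerivAt_id q₀).sub (hr.hasFDerivAt q₀))
  obtain ⟨O, hO, m, hm, hmf⟩ := H57.exists_leftInv hfs (x₀ := q₀) (by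
    intro v hv
    rw [hfd.fderiv] at hv
    have h1 : fderiv ℝ P q₀ v = 0 := congrArg Prod.fst hv
    have h2 : v - fderiv ℝ r q₀ v = 0 := congrArg Prod.snd hv
    have h3 : v ∈ Tn r q₀ := (sub_eq_zero.1 h2).symm
    exact hc.imm q₀ v hq₀ ((Tn_sph hr hq₀).1 h3) h1)
  have hf0 : f q₀ = (P q₀, 0) := by
    simp only [hf]
    rw [hr.fix q₀ (mem_Sph.2 hq₀), sub_self]
  rw [hf0] at hO
  have hcont : Continuous fun y : E' => ((y, (0 : E)) : E' × E) := by fun_prop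
  refine ⟨(fun y : E' => ((y, (0 : E)) : E' × E)) ⁻¹' O, hcont.continuousAt.preimage_mem_nhds hO,
    fun y => m (y, 0), ?_, ?_⟩
  · refine hm.comp (contDiff_id.prodMk contDiff_const).contDiffOn ?_
    exact fun y hy => hy
  · filter_upwards [hmf] with q h1 h2
    have h3 : f q = (P q, 0) := by
      simp only [hf]
      rw [hr.fix q (mem_Sph.2 h2), sub_self]
    rw [← h3]
    exact h1

/-- the covering is open -/
theorem exists_near {q₀ : E} (hq₀ : ‖q₀‖ = 1) {N : Set E} (hN : N ∈ 𝓝 q₀) :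
    ∀ᶠ y in 𝓝 (P q₀), y ∈ Q → ∃ q ∈ N, ‖q‖ = 1 ∧ P q = y := by
  by_contra hcon
  have h1 : ∃ᶠ y in 𝓝 (P q₀), y ∈ Q ∧ ∀ q ∈ N, ‖q‖ = 1 → P q ≠ y := by
    rw [not_eventually] at hcon
    refine hcon.mono fun w hw => ?_
    push Not at hw
    exact hw
  obtain ⟨y, hy, hy1⟩ := exists_seq_forall_of_frequently h1
  choose q hq1 hq2 using fun k => hc.surj (y k) (hy1 k).1
  obtain ⟨a, ha, φ, hφ, hlim⟩ := (isCompact_sphere (0 : E) 1).tendsto_subseq
    (fun k => mem_Sph.2 (hq1 k))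
  have ha1 : ‖a‖ = 1 := mem_Sph.1 ha
  have h2 : Tendsto (fun k => P (q (φ k))) atTop (𝓝 (P a)) :=
    (hc.smooth.continuous.tendsto a).comp hlim
  have h3 : Tendsto (fun k => P (q (φ k))) atTop (𝓝 (P q₀)) := by
    refine (hy.comp hφ.tendsto_atTop).congr fun k => ?_
    exact (hq2 (φ k)).symm
  have h4 : P a = P q₀ := tendsto_nhds_unique h2 h3
  obtain ⟨g, hg, hga⟩ := hc.deck a q₀ ha1 hq₀ h4
  have h5 : Tendsto (fun k => g (q (φ k))) atTop (𝓝 q₀) := by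
    rw [← hga]
    exact (g.continuous.tendsto a).comp hlim
  obtain ⟨k, hk⟩ := (h5.eventually_mem hN).exists
  refine (hy1 (φ k)).2 _ hk ?_ ?_
  · rw [LinearIsometryEquiv.norm_map]
    exact hq1 _
  · rw [hc.inv g hg _ (hq1 _)]
    exact hq2 _

/-- the local section has values in the sphere -/
theorem section_spec {q₀ : E} (hq₀ : ‖q₀‖ = 1) {σ : E' → E}
    (hσ : ∀ᶠ q in 𝓝 q₀, ‖q‖ = 1 → σ (P q) = q) {N : Set E} (hN : N ∈ 𝓝 q₀) :
    ∀ᶠ y in 𝓝 (P q₀), y ∈ Q → ‖σ y‖ = 1 ∧ P (σ y) = y ∧ σ y ∈ N := by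
  filter_upwards [hc.exists_near hq₀ (inter_mem hσ hN)] with y h1 hy
  obtain ⟨q, ⟨h2, h3⟩, h4, h5⟩ := h1 hy
  have h6 : σ y = q := by
    rw [← h5]
    exact h2 h4
  rw [h6]
  exact ⟨h4, h5, h3⟩

/-- the preimage is a submanifold -/
theorem lift_sub (hn : Module.finrank ℝ E = n + 1) (hQ : IsClosedManifold n Q) (hL : L ⊆ Cot Q)
    (hLm : IsSubmanifold n L) (hLc : IsCompact L) : IsSubmanifold n (lift P L) := by
  intro z₀ hz₀
  obtain ⟨h1, h2, hw₀⟩ := (hc.mem_lift hn hQ hL).1 hz₀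
  obtain ⟨UL, ρ, hρ, dρ⟩ := exists_ret hLm hLc
  obtain ⟨O, hO, σ, hσs, hσ⟩ := hc.exists_section h1
  set w₀ := TT P z₀ with hw₀d
  have hw1 : w₀.1 = P z₀.1 := rfl
  obtain ⟨O', hO'O, hO'o, hO'm⟩ := mem_nhds_iff.1 hO
  set R : E' × E' → E × E := fun w => (σ w.1, pb P (σ w.1, w.2)) with hR
  have hRs : ContDiffOn ℝ ∞ R (O' ×ˢ univ) := by
    have h3 : ContDiffOn ℝ ∞ (fun w : E' × E' => σ w.1) (O' ×ˢ univ) :=
      (hσs.mono hO'O).comp contDiff_fst.contDiffOn fun w hw => hw.1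
    exact h3.prodMk ((pb_smooth hc.smooth).comp_contDiffOn (h3.prodMk contDiff_snd.contDiffOn))
  have hRo : IsOpen (O' ×ˢ (univ : Set E')) := hO'o.prod isOpen_univ
  have hRm : w₀ ∈ O' ×ˢ (univ : Set E') := ⟨hO'm, mem_univ _⟩
  have hRd : HasFDerivAt R (fderiv ℝ R w₀) w₀ :=
    ((hRs.contDiffAt (hRo.mem_nhds hRm)).differentiableAt (by simp)).hasFDerivAt
  have hTd : HasFDerivAt (TT P) (fderiv ℝ (TT P) z₀) z₀ :=
    ((hc.TT_smooth (hc.gm_det h1)).differentiableAt (by simp)).hasFDerivAt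
  have hTt : Tendsto (TT P) (𝓝 z₀) (𝓝 w₀) := (hc.TT_smooth (hc.gm_det h1)).continuousAt
  have hρw : ρ w₀ = w₀ := hρ.fix w₀ hw₀
  have hρt : Tendsto ρ (𝓝 w₀) (𝓝 w₀) := by
    have := hρ.smooth.continuous.tendsto w₀
    rwa [hρw] at this
  have hfst : Tendsto Prod.fst (𝓝 w₀) (𝓝 (P z₀.1)) := continuous_fst.tendsto w₀
  -- `R` is an inverse near `w₀`
  have hTR : ∀ᶠ w in 𝓝 w₀, w ∈ L → R w ∈ lift P L ∧ TT P (R w) = w := by
    filter_upwards [hfst.eventually (hc.section_spec h1 hσ univ_mem)] with w h3 hw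
    obtain ⟨h4, h5, -⟩ := h3 (hL hw).1
    exact ⟨⟨h4, w, hw, h5.symm, rfl⟩, hc.TT_lift hn hQ hL h4 hw h5.symm⟩
  have hRT : ∀ᶠ z in 𝓝 z₀, z ∈ lift P L → R (TT P z) = z := by
    filter_upwards [(continuous_fst.tendsto z₀).eventually hσ] with z h3 hz
    obtain ⟨h4, h5, h6⟩ := (hc.mem_lift hn hQ hL).1 hz
    have h7 : σ (TT P z).1 = z.1 := h3 h4
    simp only [hR]
    rw [h7, hc.pb_TT h4 h5]
  have hR0 : R w₀ = z₀ := hRT.self_of_nhds hz₀
  -- the local retraction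
  have hcs : ContDiffOn ℝ ∞ (fun z => R (ρ (TT P z)))
      ({z | (gm P z.1).det ≠ 0} ∩ (fun z => ρ (TT P z)) ⁻¹' (O' ×ˢ univ)) := by
    refine hRs.comp (hρ.smooth.comp_contDiffOn ?_) fun z hz => hz.2
    exact fun z hz => (hc.TT_smooth hz.1).contDiffWithinAt
  have hnb : ({z | (gm P z.1).det ≠ 0} ∩ (fun z => ρ (TT P z)) ⁻¹' (O' ×ˢ univ)) ∈ 𝓝 z₀ := by
    refine inter_mem (hc.isOpen_det.mem_nhds (hc.gm_det h1)) ?_
    exact (hρt.comp hTt) (hRo.mem_nhds hRm)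
  obtain ⟨f, hf, hff⟩ := globalize hnb hcs
  have hloc : LocRet (lift P L) z₀ f := by
    refine ⟨hz₀, hf, ?_, ?_⟩
    · filter_upwards [hff, hTt.eventually (hρt.eventually hTR),
        hTt.eventually (hρ.isOpen.mem_nhds (hρ.sub hw₀))] with z h3 h4 h5
      rw [h3]
      exact (h4 (hρ.maps _ h5)).1
    · filter_upwards [hff, hRT] with z h3 h4 hz
      rw [h3]
      beta_reduce
      rw [hρ.fix _ ((hc.mem_lift hn hQ hL).1 hz).2.2]
      exact h4 hz
  -- the dimension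
  have hfd : fderiv ℝ f z₀ = (fderiv ℝ R w₀).comp ((fderiv ℝ ρ w₀).comp (fderiv ℝ (TT P) z₀)) := by
    have h3 : HasFDerivAt (fun z => ρ (TT P z)) ((fderiv ℝ ρ w₀).comp (fderiv ℝ (TT P) z₀)) z₀ :=
      (hρ.hasFDerivAt w₀).comp z₀ hTd
    have h4 : HasFDerivAt R (fderiv ℝ R w₀) (ρ (TT P z₀)) := by
      rw [← hw₀d, hρw]
      exact hRd
    exact ((h4.comp z₀ h3).congr_of_eventuallyEq hff).fderiv
  have hdim : Module.finrank ℝ (Tn f z₀) = n := by
    refine le_antisymm ?_ ?_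
    · rw [← dρ w₀ hw₀]
      set a : Tn f z₀ →ₗ[ℝ] Tn ρ w₀ :=
        LinearMap.codRestrict (Tn ρ w₀)
          ((((fderiv ℝ ρ w₀).comp (fderiv ℝ (TT P) z₀) : (E × E) →L[ℝ] (E' × E')) :
            (E × E) →ₗ[ℝ] (E' × E')).domRestrict (Tn f z₀))
          (fun v => hρ.fderiv_mem hw₀ _) with ha
      refine LinearMap.finrank_le_finrank_of_injective (f := a) ?_
      rintro ⟨v, hv⟩ ⟨v', hv'⟩ hvv
      have h3 : fderiv ℝ ρ w₀ (fderiv ℝ (TT P) z₀ v) = fderiv ℝ ρ w₀ (fderiv ℝ (TT P) z₀ v') :=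
        congrArg Subtype.val hvv
      have h4 : fderiv ℝ f z₀ v = v := hv
      have h5 : fderiv ℝ f z₀ v' = v' := hv'
      rw [hfd] at h4 h5
      refine Subtype.ext ?_
      show v = v'
      rw [← h4, ← h5]
      exact congrArg (fderiv ℝ R w₀) h3
    · rw [← dρ w₀ hw₀]
      have hkey : ∀ u ∈ Tn ρ w₀, fderiv ℝ R w₀ u ∈ Tn f z₀ ∧
          fderiv ℝ (TT P) z₀ (fderiv ℝ R w₀ u) = u := by
        intro u hu
        rw [← hρ.mem_Tan hw₀] at hu
        obtain ⟨c, hcs', hcL, hc0, hcd⟩ := hu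
        have h3 : HasDerivAt c u 0 := by
          rw [← hcd]
          exact (hcs'.differentiable (by simp) 0).hasDerivAt
        have hct : Tendsto c (𝓝 0) (𝓝 w₀) := by
          have := hcs'.continuous.tendsto 0
          rwa [hc0] at this
        have h4 : HasDerivAt (fun t => R (c t)) (fderiv ℝ R w₀ u) 0 := by
          have h5 : HasFDerivAt R (fderiv ℝ R w₀) (c 0) := by rw [hc0]; exact hRd
          exact h5.comp_hasDerivAt 0 h3
        have hRt : Tendsto (fun t => R (c t)) (𝓝 0) (𝓝 z₀) := by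
          have := h4.continuousAt.tendsto
          rwa [hc0, hR0] at this
        constructor
        · have h5 : HasFDerivAt f (fderiv ℝ f z₀) (R (c 0)) := by
            rw [hc0, hR0]
            exact (hf.differentiable (by simp) z₀).hasFDerivAt
          have h6 := h5.comp_hasDerivAt 0 h4
          refine h6.unique (h4.congr_of_eventuallyEq ?_)
          filter_upwards [hct.eventually hTR, hRt.eventually hloc.fix] with t h7 h8
          exact h8 (h7 (hcL t)).1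
        · have h5 : HasFDerivAt (TT P) (fderiv ℝ (TT P) z₀) (R (c 0)) := by
            rw [hc0, hR0]
            exact hTd
          have h6 := h5.comp_hasDerivAt 0 h4
          refine h6.unique (h3.congr_of_eventuallyEq ?_)
          filter_upwards [hct.eventually hTR] with t h7
          exact (h7 (hcL t)).2
      set b : Tn ρ w₀ →ₗ[ℝ] Tn f z₀ :=
        LinearMap.codRestrict (Tn f z₀)
          (((fderiv ℝ R w₀ : (E' × E') →L[ℝ] (E × E)) :
            (E' × E') →ₗ[ℝ] (E × E)).domRestrict (Tn ρ w₀))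
          (fun u => (hkey u.1 u.2).1) with hb
      refine LinearMap.finrank_le_finrank_of_injective (f := b) ?_
      rintro ⟨u, hu⟩ ⟨u', hu'⟩ huu
      have h3 : fderiv ℝ R w₀ u = fderiv ℝ R w₀ u' := congrArg Subtype.val huu
      refine Subtype.ext ?_
      show u = u'
      rw [← (hkey u hu).2, ← (hkey u' hu').2, h3]
  obtain ⟨Pj, hPj, hPj2⟩ := exists_projection (Tn f z₀)
  obtain ⟨Θ, k1, k2, k3, k4, -, -⟩ := hloc.exists_chart hPj hPj2
  exact ⟨Θ, Tn f z₀, k1, k2, k3, hdim, k4⟩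

/-- curves are mapped to curves -/
theorem TT_curve {c : ℝ → E × E} (hcs : ContDiff ℝ ∞ c) (h : ∀ t, ‖(c t).1‖ = 1) :
    ContDiff ℝ ∞ fun t => TT P (c t) := by
  rw [contDiff_iff_contDiffAt]
  intro t
  exact (hc.TT_smooth (hc.gm_det (h t))).comp t hcs.contDiffAt

/-- the canonical one-forms -/
theorem TT_lam {z v : E × E} (h1 : ‖z.1‖ = 1) (h2 : inner ℝ z.1 z.2 = (0 : ℝ))
    (h3 : inner ℝ z.1 v.1 = (0 : ℝ)) :
    (inner ℝ (TT P z).2 (fderiv ℝ (TT P) z v).1 : ℝ) = inner ℝ z.2 v.1 := by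
  have h4 : (fderiv ℝ (TT P) z v).1 = fderiv ℝ P z.1 v.1 := by
    have h5 : HasFDerivAt (fun z => (TT P z).1)
        ((ContinuousLinearMap.fst ℝ E' E').comp (fderiv ℝ (TT P) z)) z :=
      hasFDerivAt_fst.comp z
        ((hc.TT_smooth (hc.gm_det h1)).differentiableAt (by simp)).hasFDerivAt
    have h6 : HasFDerivAt (fun z : E × E => P z.1)
        ((fderiv ℝ P z.1).comp (ContinuousLinearMap.fst ℝ E E)) z :=
      ((hc.smooth.differentiable (by simp) z.1).hasFDerivAt).comp z hasFDerivAt_fst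
    exact congrArg (fun C : (E × E) →L[ℝ] E' => C v) (h5.unique h6)
  have h5 := inner_pb (P := P) z.1 v.1 (TT P z).2
  rw [hc.pb_TT h1 h2, pr_of_orth h3] at h5
  rw [h4, ← h5]

/-- **The preimage of a closed exact Lagrangian is a closed exact Lagrangian.** -/
theorem lift_closed (hn : Module.finrank ℝ E = n + 1) (hQ : IsClosedManifold n Q)
    (hL : IsClosedExactLagrangian n Q L) : IsClosedExactLagrangian n (Sph E) (lift P L) := by
  have hm := fun z : E × E => hc.mem_lift hn hQ hL.sub (z := z)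
  have hcomp := hc.lift_compact hL.compact
  obtain ⟨f, hf, hex⟩ := hL.exact
  obtain ⟨f', hf', hff⟩ := glue hcomp.isClosed (fun z => f (TT P z)) (fun z hz =>
    ⟨{z | (gm P z.1).det ≠ 0}, hc.isOpen_det.mem_nhds (hc.gm_det ((hm z).1 hz).1),
      fun z => f (TT P z), hf.comp_contDiffOn fun y hy => (hc.TT_smooth hy).contDiffWithinAt,
      fun y _ _ => rfl⟩)
  refine ⟨hc.lift_sub hn hQ hL.sub hL.mfd hL.compact, hcomp, ?_, ?_, f', hf', ?_⟩
  · obtain ⟨w, hw⟩ := hL.nonempty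
    obtain ⟨q, hq, hqw⟩ := hc.surj w.1 (hL.sub hw).1
    exact ⟨(q, pb P (q, w.2)), hq, w, hw, hqw.symm, rfl⟩
  · intro z hz
    obtain ⟨h1, h2, -⟩ := (hm z).1 hz
    exact cot_sph.2 ⟨h1, h2⟩
  · rintro z hz v ⟨c, hcs, hcL, hc0, hcd⟩
    have hcn : ∀ t, ‖(c t).1‖ = 1 := fun t => ((hm _).1 (hcL t)).1
    obtain ⟨h1, h2, h3⟩ := (hm z).1 hz
    have d1 : HasDerivAt c v 0 := by
      rw [← hcd]
      exact (hcs.differentiable (by simp) 0).hasDerivAt
    have d2 : HasDerivAt (fun t => TT P (c t)) (fderiv ℝ (TT P) z v) 0 := by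
      have h4 : HasFDerivAt (TT P) (fderiv ℝ (TT P) z) (c 0) := by
        rw [hc0]
        exact ((hc.TT_smooth (hc.gm_det h1)).differentiableAt (by simp)).hasFDerivAt
      exact h4.comp_hasDerivAt 0 d1
    have h4 : fderiv ℝ (TT P) z v ∈ Tan L (TT P z) := by
      refine ⟨fun t => TT P (c t), hc.TT_curve hcs hcn, fun t => ((hm _).1 (hcL t)).2.2, by
        beta_reduce
        rw [hc0], d2.deriv⟩
    have h5 := hex _ h3 _ h4
    have h6 : inner ℝ z.1 v.1 = (0 : ℝ) := by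
      refine (tan_sph h1).1 ⟨fun t => (c t).1, contDiff_fst.comp hcs, fun t => mem_Sph.2 (hcn t), by
        beta_reduce
        rw [hc0], ?_⟩
      exact (hasFDerivAt_fst.comp_hasDerivAt 0 d1).deriv
    have d3 : HasDerivAt (fun t => f' (c t)) (fderiv ℝ f' z v) 0 := by
      have h7 : HasFDerivAt f' (fderiv ℝ f' z) (c 0) := by
        rw [hc0]
        exact (hf'.differentiable (by simp) z).hasFDerivAt
      exact h7.comp_hasDerivAt 0 d1
    have d4 : HasDerivAt (fun t => f (TT P (c t))) (fderiv ℝ f (TT P z) (fderiv ℝ (TT P) z v)) 0 := by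
      have h7 : HasFDerivAt f (fderiv ℝ f (TT P z)) (TT P (c 0)) := by
        rw [hc0]
        exact (hf.differentiable (by simp) _).hasFDerivAt
      exact h7.comp_hasDerivAt 0 d2
    have h8 : (fun t => f' (c t)) = fun t => f (TT P (c t)) := funext fun t => hff _ (hcL t)
    rw [h8] at d3
    rw [d3.unique d4, h5]
    exact hc.TT_lam h1 h2 h6

end IsCover

end Vale.Agent.P220.R2.H57S
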